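import Vale.Agent.P089.Dist
import Vale.Agent.P089.Ros
import Vale.Agent.P194.Rand

/-! Colourings that separate paths (job Col). -/

namespace Vale.Agent.P089

namespace ColX

open Finset

variable {S V : Type} (Γ : Gp S V)

/-- a walk is determined by its letters and one vertex -/
lemma wk_det {y y' : ℕ → V} {s s' : ℕ → S × Bool} {n : ℕ} (h : Γ.Wk y s n) (h' : Γ.Wk y' s' n)
    (hs : ∀ i < n, s i = s' i) {j : ℕ} (hj : j ≤ n) (e : y j = y' j) : ∀ i ≤ n, y i = y' i := by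
  have up : ∀ k, j + k ≤ n → y (j + k) = y' (j + k) := fun k => by
    induction k with
    | zero => exact fun _ => e
    | succ k ih =>
      intro hk
      have h1 := h (j + k) hk
      rw [ih (by omega), hs (j + k) hk] at h1
      exact Γ.st_fun h1 (h' (j + k) hk)
  have down : ∀ k, y (j - k) = y' (j - k) := fun k => by
    induction k with
    | zero => exact e
    | succ k ih =>
      by_cases c : j ≤ k
      · rwa [show j - (k + 1) = j - k by omega]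
      · have h1 := Γ.st_rev (h (j - (k + 1)) (by omega))
        have h2 := Γ.st_rev (h' (j - (k + 1)) (by omega))
        rw [show j - (k + 1) + 1 = j - k by omega] at h1 h2
        rw [ih, hs _ (by omega)] at h1
        exact Γ.st_fun h1 h2
  intro i hi
  rcases le_total j i with c | c
  · simpa only [Nat.add_sub_cancel' c] using up (i - j) (by omega)
  · simpa only [Nat.sub_sub_self c] using down (j - i)

variable {V' : Type} (Γ' : Gp S V')

/-- pairs of reduced walks with the same letters -/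
def Pr (L : ℕ) (p : (Fin L → V) × (Fin L → V')) : Prop :=
  ∃ y y' s, Γ.Wk y s L ∧ Γ'.Wk y' s L ∧ Rd s L ∧ ∀ k : Fin L, p.1 k = y k ∧ p.2 k = y' k

open Classical in
lemma count [Fintype S] [Fintype V] [Fintype V'] (L : ℕ) (v : V') :
    ((univ.filter (Pr Γ Γ' L)).filter fun p => v ∈ univ.image p.2).card ≤
      L * (Fintype.card (S × Bool) ^ L * Fintype.card V) := by
  refine (card_le_card_of_forall_subsingleton (t := univ)
    (fun p (q : Fin L × (Fin L → S × Bool) × V) => ∃ y y' s, Γ.Wk y s L ∧ Γ'.Wk y' s L ∧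
      (∀ k : Fin L, p.1 k = y k ∧ p.2 k = y' k ∧ q.2.1 k = s k) ∧ y 0 = q.2.2 ∧ y' q.1 = v)
    (fun p hp => ?_) fun q _ p hp p' hp' => ?_).trans_eq (by simp)
  · obtain ⟨h1, h2⟩ := mem_filter.1 hp
    obtain ⟨y, y', s, a1, a2, -, a3⟩ := (mem_filter.1 h1).2
    obtain ⟨i, -, hi⟩ := mem_image.1 h2
    exact ⟨(i, fun k => s k, y 0), mem_univ _, y, y', s, a1, a2,
      fun k => ⟨(a3 k).1, (a3 k).2, rfl⟩, rfl, (a3 i).2.symm.trans hi⟩
  · obtain ⟨y, y', s, a1, a2, a3, a4, a5⟩ := hp.2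
    obtain ⟨z, z', t, b1, b2, b3, b4, b5⟩ := hp'.2
    have hs : ∀ i < L, s i = t i := fun i hi => (a3 ⟨i, hi⟩).2.2.symm.trans (b3 ⟨i, hi⟩).2.2
    refine Prod.ext (funext fun k => ?_) (funext fun k => ?_)
    · rw [(a3 k).1, (b3 k).1, wk_det Γ a1 b1 hs L.zero_le (a4.trans b4.symm) k k.2.le]
    · rw [(a3 k).2.1, (b3 k).2.1, wk_det Γ' a2 b2 hs q.1.2.le (a5.trans b5.symm) k k.2.le]

lemma num {L a b N m : ℕ} (hN : N ≤ 2 ^ (b * L)) (hm : m + 1 ≤ L) :
    ((L * (a ^ L * N) : ℕ) : ℝ) * ((2 : ℝ) ^ (b + a + 2) / ((2 : ℝ) ^ (b + a + 2)) ^ L) ≤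
      2 ^ (b + a + 2) * (1 / 2) ^ (m + 1) := by
  have h1 : L * (a ^ L * N) * 2 ^ (m + 1) ≤ (2 ^ (b + a + 2)) ^ L := by
    calc _ ≤ 2 ^ L * ((2 ^ a) ^ L * 2 ^ (b * L)) * 2 ^ L := Nat.mul_le_mul (Nat.mul_le_mul
          Nat.lt_two_pow_self.le (Nat.mul_le_mul (Nat.pow_le_pow_left Nat.lt_two_pow_self.le _) hN))
          (Nat.pow_le_pow_right two_pos hm)
      _ = _ := by
        simp only [← pow_mul, ← pow_add]
        congr 1
        ring
  have h2 : ((L * (a ^ L * N) : ℕ) : ℝ) * 2 ^ (m + 1) ≤ ((2 : ℝ) ^ (b + a + 2)) ^ L := by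
    exact_mod_cast h1
  rw [mul_div_left_comm, one_div_pow]
  refine mul_le_mul_of_nonneg_left ?_ (by positivity)
  rwa [div_le_div_iff₀ (by positivity) (by positivity), one_mul]

open Classical in
lemma step {S : Type} [Fintype S] (b : ℕ) (μ : ℕ → ℕ) (h1 : StrictMono μ) (h2 : 0 < μ 0)
    (V : ℕ → Type) [∀ m, Fintype (V m)] (Γ : ∀ m, Gp S (V m))
    (h3 : ∀ m, Fintype.card (V m) ≤ 2 ^ (b * μ m)) (h4 : ∀ m v, (Γ m).Girth v (3 * μ m + 1))
    (m' : ℕ) (κ : ∀ m, V m → Fin (2 ^ (b + Fintype.card (S × Bool) + 2) * 2)) :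
    ∃ κ' : V m' → Fin (2 ^ (b + Fintype.card (S × Bool) + 2) * 2), ∀ m < m', ∀ y y' s,
      (Γ m).Wk y s (3 * μ m) → (Γ m').Wk y' s (3 * μ m) → Rd s (3 * μ m) →
        ∃ i < 3 * μ m, κ m (y i) ≠ κ' (y' i) := by
  have hμ : ∀ m, m + 1 ≤ μ m := fun m => by
    have := h1.add_le_nat m 0
    simp only [add_zero] at this
    omega
  have inj : ∀ m < m', ∀ p, Pr (Γ m) (Γ m') (3 * μ m) p → Function.Injective p.2 := by
    rintro m hm p ⟨y, y', s, -, a2, a3, a4⟩ i j e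
    rw [(a4 i).2, (a4 j).2] at e
    exact Fin.ext ((Γ m').wk_inj (fun i _ => h4 m' _) a2 a3 (by have := h1 hm; omega) i.2.le
      j.2.le e)
  have b1 : (1 : ℝ) ≤ 2 ^ (b + Fintype.card (S × Bool) + 2) := one_le_pow₀ one_le_two
  obtain ⟨κ', hκ⟩ := rosenfeld (K := Fin (2 ^ (b + Fintype.card (S × Bool) + 2) * 2))
    ((range m').sigma fun m => univ.filter (Pr (Γ m) (Γ m') (3 * μ m)))
    (fun e => univ.image e.2.2)
    (fun e v => if h : ∃ i, e.2.2 i = v then κ e.1 (e.2.1 h.choose) else ⟨0, by positivity⟩) b1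
    (fun e _ => ⟨_, mem_image_of_mem _ (mem_univ ⟨0, by have := hμ e.1; omega⟩)⟩)
    (by rw [Fintype.card_fin]; push_cast; linarith) fun v => by
      rw [sum_filter, sum_sigma, Fintype.card_fin, Nat.cast_mul, Nat.cast_pow, Nat.cast_two,
        mul_two]
      refine add_le_add le_rfl ((sum_le_sum (g := fun m => 2 ^ (b + Fintype.card (S × Bool) + 2) *
        (1 / 2) ^ (m + 1)) fun m hm => ?_).trans ?_)
      · rw [← sum_filter, sum_congr rfl fun p hp => by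
          rw [card_image_of_injective _ (inj m (mem_range.1 hm) p
            (mem_filter.1 (mem_filter.1 hp).1).2), card_univ, Fintype.card_fin],
          sum_const, nsmul_eq_mul]
        refine (mul_le_mul_of_nonneg_right (Nat.cast_le.2 (count (Γ m) (Γ m') _ v))
          (by positivity)).trans (num ((h3 m).trans (Nat.pow_le_pow_right two_pos
            (Nat.mul_le_mul_left b (by omega)))) (by have := hμ m; omega))
      · rw [← mul_sum]
        refine mul_le_of_le_one_right (by positivity) ?_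
        simp only [pow_succ, ← sum_mul]
        linarith [sum_geometric_two_le m']
  refine ⟨κ', fun m hm y y' s a1 a2 a3 => ?_⟩
  have hp : Pr (Γ m) (Γ m') (3 * μ m) (fun k => y k, fun k => y' k) :=
    ⟨y, y', s, a1, a2, a3, fun _ => ⟨rfl, rfl⟩⟩
  obtain ⟨v, hv, h5⟩ := hκ ⟨m, _⟩ (mem_sigma.2 ⟨mem_range.2 hm, mem_filter.2 ⟨mem_univ _, hp⟩⟩)
  obtain ⟨i, -, rfl⟩ := mem_image.1 hv
  have h6 : ∃ j : Fin (3 * μ m), y' j = y' i := ⟨i, rfl⟩
  rw [dif_pos h6, inj m hm _ hp h6.choose_spec] at h5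
  exact ⟨i, i.2, h5.symm⟩

end ColX

theorem exists_colA (S : Type) [Fintype S] (b : ℕ) : ∃ (K : Type) (_ : Fintype K),
    ∀ (μ : ℕ), 0 < μ → ∀ (V : Type) [Fintype V] (Γ : Gp S V), Fintype.card V ≤ 2 ^ (b * μ) →
      (∀ v, Γ.Girth v (3 * μ + 1)) → ∃ κ : V → K, ∀ y y' s, Γ.Wk y s (3 * μ) →
        Γ.Wk y' s (3 * μ) → Rd s (3 * μ) → (∀ i < 3 * μ, κ (y i) = κ (y' i)) → y 0 = y' 0 := by
  classical
  refine ⟨Fin (2 ^ (2 * b + 6 * Fintype.card (Option (S × Bool)) + 1)), inferInstance,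
    fun μ hμ V _ Γ h1 h2 => ?_⟩
  obtain ⟨κ, hκ⟩ := P194.random (D := Fin (2 ^ (2 * b + 6 * Fintype.card (Option (S × Bool)) + 1)))
    (fun (v : V) (a : Option (S × Bool)) =>
      a.elim v fun a => if h : ∃ v', Γ.st v a v' then h.choose else v) (m := μ) (by
      rw [Fintype.card_fin, ← pow_mul]
      refine lt_of_le_of_lt (Nat.pow_le_pow_left (Nat.mul_le_mul h1
        (Nat.pow_le_pow_left Nat.lt_two_pow_self.le _)) 2) ?_
      rw [← pow_mul, ← pow_add, ← pow_mul]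
      exact Nat.pow_lt_pow_right one_lt_two (by nlinarith))
  have h3 : ∀ y s, Γ.Wk y s (3 * μ) → ∀ i, i + 1 < 3 * μ → ∃ a : Option (S × Bool), y (i + 1) =
      a.elim (y i) fun a => if h : ∃ v', Γ.st (y i) a v' then h.choose else y i := by
    intro y s h i hi
    have h4 : ∃ v', Γ.st (y i) (s i) v' := ⟨_, h i (by omega)⟩
    exact ⟨some (s i), (Γ.st_fun (h i (by omega)) h4.choose_spec).trans (dif_pos h4).symm⟩
  have h4 : ∀ y s, Γ.Wk y s (3 * μ) → Rd s (3 * μ) → Set.InjOn y (Finset.range (3 * μ)) :=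
    fun y s h hr i hi j hj e => Γ.wk_inj (fun i _ => h2 _) h hr (Nat.lt_succ_self _)
      (Finset.mem_range.1 hi).le (Finset.mem_range.1 hj).le e
  refine ⟨κ, fun y y' s a1 a2 a3 a4 => ?_⟩
  obtain ⟨i, hi, e⟩ := hκ y y' (h3 y s a1) (h3 y' s a2) (h4 y s a1 a3) (h4 y' s a2 a3) a4
  exact ColX.wk_det Γ a1 a2 (fun _ _ => rfl) hi.le e 0 (Nat.zero_le _)

theorem exists_colB (S : Type) [Fintype S] (b : ℕ) : ∃ (K : Type) (_ : Fintype K),
    ∀ (μ : ℕ → ℕ), StrictMono μ → 0 < μ 0 → ∀ (V : ℕ → Type) [∀ m, Fintype (V m)]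
      (Γ : ∀ m, Gp S (V m)), (∀ m, Fintype.card (V m) ≤ 2 ^ (b * μ m)) →
      (∀ m v, (Γ m).Girth v (3 * μ m + 1)) → ∃ κ : ∀ m, V m → K, ∀ m m', m < m' →
        ∀ y y' s, (Γ m).Wk y s (3 * μ m) → (Γ m').Wk y' s (3 * μ m) → Rd s (3 * μ m) →
          ∃ i < 3 * μ m, κ m (y i) ≠ κ m' (y' i) := by
  refine ⟨Fin (2 ^ (b + Fintype.card (S × Bool) + 2) * 2), inferInstance,
    fun μ h1 h2 V _ Γ h3 h4 => ?_⟩
  choose F hF using ColX.step b μ h1 h2 V Γ h3 h4
  obtain ⟨κ, hκ⟩ : ∃ κ : ∀ m, V m → Fin (2 ^ (b + Fintype.card (S × Bool) + 2) * 2), ∀ m',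
      κ m' = F m' fun m => if m < m' then κ m else fun _ => ⟨0, by positivity⟩ :=
    ⟨(wellFounded_lt (α := ℕ)).fix fun m' r =>
      F m' fun m => if h : m < m' then r m h else fun _ => ⟨0, by positivity⟩,
      fun m' => WellFounded.fix_eq _ _ m'⟩
  refine ⟨κ, fun m m' hm y y' s a1 a2 a3 => ?_⟩
  obtain ⟨i, hi, h⟩ := hF m' _ m hm y y' s a1 a2 a3
  rw [← hκ, if_pos hm] at h
  exact ⟨i, hi, h⟩

end Vale.Agent.P089
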