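import Vale.Agent.P089.Sig
import Vale.Agent.P089.Col
import Vale.Agent.P089.ExpB

/-! Existence of the family (job Asm). -/

namespace Vale.Agent.P089

/-- relabelling by a vertex colouring -/
def Gp.relab {S V K : Type} (Γ : Gp S V) (κ : V → K) : Gp (S × K × K) V where
  st v a v' := Γ.st v (a.1.1, a.2) v' ∧
    if a.2 then a.1.2 = (κ v, κ v') else a.1.2 = (κ v', κ v)
  st_fun h h' := Γ.st_fun h.1 h'.1
  st_rev := by
    rintro v ⟨a, _ | _⟩ v' h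
    · exact ⟨Γ.st_rev h.1, h.2⟩
    · exact ⟨Γ.st_rev h.1, h.2⟩

namespace AsmX

variable {S V K : Type} (Γ : Gp S V) (κ : V → K)

/-- forget the colours -/
def pj (a : (S × K × K) × Bool) : S × Bool := (a.1.1, a.2)

theorem inj {v v' v'' : V} {a a' : (S × K × K) × Bool} (h : (Γ.relab κ).st v a v')
    (h' : (Γ.relab κ).st v a' v'') (e : pj a = pj a') : a = a' := by
  obtain ⟨⟨s, k⟩, b⟩ := a
  obtain ⟨⟨s', k'⟩, b'⟩ := a'
  obtain ⟨rfl, rfl⟩ : s = s' ∧ b = b' := Prod.ext_iff.1 e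
  obtain rfl := Γ.st_fun h.1 h'.1
  have h1 := h.2
  have h2 := h'.2
  cases b <;> simp only [Bool.false_eq_true, if_true, if_false] at h1 h2 <;> rw [h1, h2]

theorem surj {v v' : V} {a : S × Bool} (h : Γ.st v a v') :
    ∃ a', pj a' = a ∧ (Γ.relab κ).st v a' v' := by
  obtain ⟨s, _ | _⟩ := a
  · exact ⟨((s, κ v', κ v), false), rfl, h, by simp⟩
  · exact ⟨((s, κ v, κ v'), true), rfl, h, by simp⟩

theorem src {v v' : V} {a : (S × K × K) × Bool} (h : (Γ.relab κ).st v a v') :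
    κ v = if a.2 then a.1.2.1 else a.1.2.2 := by
  have h1 := h.2
  split_ifs at h1 ⊢ <;> rw [h1]

theorem wk {y : ℕ → V} {s : ℕ → (S × K × K) × Bool} {n n' : ℕ} (h : (Γ.relab κ).Wk y s n)
    (hn : n' ≤ n) : Γ.Wk y (fun i => pj (s i)) n' := fun i hi => (h i (by omega)).1

theorem rd {y : ℕ → V} {s : ℕ → (S × K × K) × Bool} {n n' : ℕ} (h : (Γ.relab κ).Wk y s n)
    (hr : Rd s n) (hn : n' ≤ n) : Rd (fun i => pj (s i)) n' := fun i hi e =>
  hr i (by omega) (inj Γ κ (h (i + 1) (by omega)) ((Γ.relab κ).st_rev (h i (by omega))) e)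

theorem girth {v : V} {g : ℕ} (h : Γ.Girth v g) : (Γ.relab κ).Girth v g :=
  fun y _ n h0 h1 h2 h3 h4 => h y _ n h0 (wk Γ κ h1 le_rfl) (rd Γ κ h1 h2 le_rfl) h3 h4

variable [Fintype S] [Fintype K]

theorem out_card (v : V) : ((Γ.relab κ).out v).card = (Γ.out v).card := by
  refine Finset.card_bij (fun a _ => pj a) (fun a ha => ?_) (fun a ha a' ha' e => ?_)
    fun a ha => ?_
  · obtain ⟨v', h⟩ := (Gp.mem_out _).1 ha
    exact (Gp.mem_out _).2 ⟨v', h.1⟩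
  · obtain ⟨v', h⟩ := (Gp.mem_out _).1 ha
    obtain ⟨v'', h'⟩ := (Gp.mem_out _).1 ha'
    exact inj Γ κ h h' e
  · obtain ⟨v', h⟩ := (Gp.mem_out _).1 ha
    obtain ⟨a', h1, h2⟩ := surj Γ κ h
    exact ⟨a', (Gp.mem_out _).2 ⟨v', h2⟩, h1⟩

theorem bd_card (T : Finset V) : (Γ.bd T).card ≤ ((Γ.relab κ).bd T).card := by
  classical
  refine Finset.card_le_card_of_surjOn (fun p => (p.1, pj p.2)) fun p hp => ?_
  simp only [Gp.bd, Finset.coe_filter, Finset.mem_product, Finset.mem_univ, and_true,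
    Set.mem_setOf_eq, Set.mem_image] at hp ⊢
  obtain ⟨h1, v', h2, h3⟩ := hp
  obtain ⟨a', h4, h5⟩ := surj Γ κ h2
  exact ⟨(p.1, a'), ⟨h1, v', h5, h3⟩, by rw [h4]⟩

theorem num {a b D μ N : ℕ} (hb : 6 * D + 3 ≤ b) (hμ : a + b + 2 ≤ μ) (h1 : 2 ^ (b * μ) ≤ 2 * N)
    (h2 : N ≤ 2 ^ (b * μ)) : (D + 1) ^ (2 * (3 * μ)) < N ∧
      2 * ((N + 1) * 2 ^ a) ^ ((D + 1) ^ (2 * (3 * μ))) < 2 ^ N := by
  set s := (D + 1) ^ (2 * (3 * μ)) with hs
  have h3 : s ≤ 2 ^ (6 * D * μ) := by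
    calc s ≤ (2 ^ D) ^ (2 * (3 * μ)) := Nat.pow_le_pow_left Nat.lt_two_pow_self _
      _ = _ := by rw [← pow_mul]; congr 1; ring
  have h4 : 1 ≤ s := Nat.one_le_pow _ _ (by omega)
  have h5 : μ < 2 ^ μ := Nat.lt_two_pow_self
  have h6 : b * μ + a + 2 < 2 ^ μ * 2 ^ μ := by nlinarith
  have h7 : 2 * (2 ^ μ * 2 ^ μ * 2 ^ (6 * D * μ)) ≤ 2 ^ (b * μ) := by
    calc _ = 2 ^ (6 * D * μ + 2 * μ + 1) := by ring
      _ ≤ _ := Nat.pow_le_pow_right (by norm_num) (by nlinarith)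
  have h8 : (b * μ + a + 2) * s < N :=
    lt_of_lt_of_le (Nat.mul_lt_mul_of_lt_of_le h6 h3 (by positivity)) (by omega)
  refine ⟨lt_of_le_of_lt (Nat.le_mul_of_pos_left _ (by omega)) h8, ?_⟩
  have h9 : N + 1 ≤ 2 ^ (b * μ + 1) := by
    have := Nat.one_le_two_pow (n := b * μ)
    rw [pow_succ]
    omega
  calc _ ≤ 2 * (2 ^ (b * μ + 1) * 2 ^ a) ^ s := by gcongr
    _ = 2 ^ ((b * μ + 1 + a) * s + 1) := by rw [← pow_add, ← pow_mul, ← pow_succ']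
    _ < _ := Nat.pow_lt_pow_right (by norm_num) (by nlinarith)

end AsmX

theorem exists_fam : ∃ (S : Type) (_ : Fintype S) (V : Type), Nonempty (Fam S V) := by
  obtain ⟨S, _, c, hc⟩ := exists_expander
  obtain ⟨D, hD⟩ : ∃ D, D = Fintype.card (S × Bool) := ⟨_, rfl⟩
  obtain ⟨b, hb⟩ : ∃ b, b = c * (409 + 36 * (D + 1)) + 6 * D + 3 := ⟨_, rfl⟩
  obtain ⟨K1, _, hA⟩ := exists_colA S b
  obtain ⟨K2, _, hB⟩ := exists_colB S b
  obtain ⟨a, ha⟩ : ∃ a, a = Fintype.card ((S × (K1 × K2 × Fin (D + 1)) ×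
    (K1 × K2 × Fin (D + 1))) × Bool) := ⟨_, rfl⟩
  obtain ⟨μ, hμ⟩ : ∃ μ : ℕ → ℕ, ∀ m, μ m = a + b + 2 + m := ⟨_, fun _ => rfl⟩
  have h1 : ∀ m, c ^ (100 * (3 * μ m + 1) + 4 * ((D + 1) * (2 * (3 * μ m) + 3) + 2) + 1) ≤
      2 ^ (b * μ m) := fun m => by
    have h2 : 1 ≤ μ m := by rw [hμ]; omega
    calc _ ≤ (2 ^ c) ^ (100 * (3 * μ m + 1) + 4 * ((D + 1) * (2 * (3 * μ m) + 3) + 2) + 1) :=
          Nat.pow_le_pow_left Nat.lt_two_pow_self.le _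
      _ ≤ (2 ^ c) ^ ((409 + 36 * (D + 1)) * μ m) :=
          Nat.pow_le_pow_right (by positivity) (by nlinarith)
      _ ≤ _ := by
        rw [← pow_mul, ← mul_assoc]
        exact Nat.pow_le_pow_right (by norm_num) (Nat.mul_le_mul_right _ (by omega))
  choose V iV Γ g1 g2 g3 g4 g5 using fun m => hc _ _ (h1 m)
  have g6 : ∀ m v, (Γ m).Girth v (3 * μ m + 1) := fun m v y s n h0 h2 h3 h4 h5 =>
    le_trans (by omega) (g4 m v y s n h0 h2 h3 h4 h5)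
  have g7 : ∀ m v, ((Γ m).out v).card ≤ D := fun m v => hD ▸ Finset.card_le_univ _
  have hmono : StrictMono μ := fun m m' h => by rw [hμ, hμ]; omega
  choose κ1 k1 using fun m => hA (μ m) (by rw [hμ]; omega) (V m) (Γ m) (g2 m) (g6 m)
  obtain ⟨κ2, k2⟩ := hB μ hmono (by rw [hμ]; omega) V Γ g2 g6
  let κ : ∀ m, V m → K1 × K2 × Fin (D + 1) := fun m v =>
    (κ1 m v, κ2 m v, ⟨((Γ m).out v).card, Nat.lt_succ_of_le (g7 m v)⟩)
  have hn := fun m => AsmX.num (a := a) (b := b) (D := D) (μ := μ m) (by omega)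
    (by rw [hμ]; omega) (g1 m) (g2 m)
  have eq : ∀ m m' y y' s n, ((Γ m).relab (κ m)).Wk y s n → ((Γ m').relab (κ m')).Wk y' s n →
      ∀ i < n, κ m (y i) = κ m' (y' i) := fun m m' y y' s n h h' i hi =>
    (AsmX.src _ _ (h i hi)).trans (AsmX.src _ _ (h' i hi)).symm
  refine ⟨_, inferInstance, _, fam_of_levels V (fun m => (Γ m).relab (κ m)) D
    (fun a => (if a.2 then a.1.2.1 else a.1.2.2).2.2.1) (fun m => 3 * μ m)
    (fun m => (D + 1) * (2 * (3 * μ m) + 3) + 2) (fun m v => ?_) (fun m v a ha => ?_)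
    (fun m => ?_) (fun m y y' s h h' hr => ?_) (fun m m' y y' s h h' hr => ?_)
    (fun m v => AsmX.girth _ _ (g4 m v)) (fun m => ?_) (fun m => (hn m).1)
    (fun m T hT => (g5 m T hT).trans (AsmX.bd_card _ _ T)) (fun m => ?_)
    fun m => ha ▸ (hn m).2⟩
  · rw [AsmX.out_card]
    exact ⟨g3 m v, g7 m v⟩
  · obtain ⟨v', h⟩ := (Gp.mem_out _).1 ha
    rw [AsmX.out_card, ← AsmX.src _ _ h]
  · rw [hμ]; omega
  · exact k1 m y y' _ (AsmX.wk _ _ h (by omega)) (AsmX.wk _ _ h' (by omega))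
      (AsmX.rd _ _ h hr (by omega)) fun i hi =>
        congrArg Prod.fst (eq m m y y' s _ h h' i (by omega))
  · by_contra h2
    rcases lt_or_gt_of_ne h2 with h3 | h3
    · obtain ⟨i, hi, h4⟩ := k2 m m' h3 y y' _ (AsmX.wk _ _ h (by omega))
        (AsmX.wk _ _ h' (by omega)) (AsmX.rd _ _ h hr (by omega))
      exact h4 (congrArg (fun k => k.2.1) (eq m m' y y' s _ h h' i (by omega)))
    · have h5 := hmono h3
      obtain ⟨i, hi, h4⟩ := k2 m' m h3 y' y _ (AsmX.wk _ _ h' (by omega))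
        (AsmX.wk _ _ h (by omega)) (AsmX.rd _ _ h hr (by omega))
      exact h4 (congrArg (fun k => k.2.1) (eq m m' y y' s _ h h' i (by omega))).symm
  · calc _ ≤ 4 * (2 ^ (D + 1)) ^ (2 * (3 * μ m) + 3) :=
          Nat.mul_le_mul_left _ (Nat.pow_le_pow_left Nat.lt_two_pow_self.le _)
      _ = _ := by rw [← pow_mul, pow_add]; ring
  · have h2 := g1 (m + 1)
    have h3 := g2 m
    have h4 : 2 ^ (b * μ m + 3) ≤ 2 ^ (b * μ (m + 1)) :=
      Nat.pow_le_pow_right (by norm_num) (by rw [hμ, hμ, ← add_assoc, mul_add_one]; omega)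
    have h5 := Nat.one_le_two_pow (n := b * μ m)
    rw [pow_add] at h4
    omega

end Vale.Agent.P089
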