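import Vale.Agent.P089.Fam
import Vale.Agent.P194.VK

/-! The graphical small cancellation group and Greendlinger's lemma (job GL). -/

namespace Vale.Agent.P089

namespace GLX

open Vale.Agent.P194 Equiv Equiv.Perm Finset

set_option linter.unusedSectionVars false

section Face

variable {A G V : Type} [Group G] {Γ : Sys A G V} {D : Type} [Fintype D] [DecidableEq D]
  {T : Dat D A G V} {σ α : Perm D}

lemma run (h : Dg Γ T σ α) (hr : Red Γ T σ α) (Gd : Finset D) (hσ : ∀ d ∈ Gd, σ d ∈ Gd)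
    (hG : ∀ d ∈ Gd, α d ≠ d ∧ ∃ v, (T.s d).2 = Sum.inl v) {l : ℕ} {d : D} (hd : d ∈ Gd)
    (hl : ∀ (v v' : ℕ → V) (a : ℕ → A), (T.s d).2 = Sum.inl (v 0) →
      (∀ i ≤ l, Γ.st (v i) (a i) (v (i + 1)) ∧ Γ.st (v' i) (a i) (v' (i + 1))) →
      (∀ i < l, a (i + 1) ≠ Γ.iv (a i)) → v 0 = v' 0) {u : V}
    (hu : (T.s (α d)).2 = Sum.inl u) :
    ∃ i < l, (α * σ) ((α * σ) ((σ ^ i) d)) ≠ (σ ^ i) d := by
  by_contra hcon
  push Not at hcon
  obtain ⟨v, h1, h2, h3, h4⟩ := good_path h hr Gd hσ hG hd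
  have ha : ∀ i, α ((σ ^ i) d) ≠ (σ ^ i) d := fun i => (hG _ (pow_mem_good Gd hσ hd i)).1
  have e1 : ∀ i < l, T.t (α ((σ ^ (i + 1)) d)) = T.s (α ((σ ^ i) d)) := by
    intro i hi
    rw [← h.sd _ (Or.inl (h.act (ha _)))]
    congr 1
    rw [← h.inv (σ _), pow_succ', Perm.mul_apply]
    exact congrArg α (hcon i hi)
  have e2 : ∀ i, ∃ w, i ≤ l → (T.s (α ((σ ^ i) d))).2 = Sum.inl w := by
    intro i
    induction i with
    | zero => exact ⟨u, fun _ => hu⟩
    | succ i ih =>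
      obtain ⟨w, hw⟩ := ih
      by_cases hi : i + 1 ≤ l
      · obtain ⟨w', b1, -⟩ :=
          h.edgeR (h.act (ha (i + 1))) (v' := w) (by rw [e1 i hi, hw (by omega)])
        exact ⟨w', fun _ => b1⟩
      · exact ⟨u, fun h => absurd h hi⟩
  choose w hw using e2
  obtain ⟨w0, c1, c2⟩ := h.edgeL (h.act (ha 0)) (hw 0 (Nat.zero_le _))
  let v' : ℕ → V := fun i => Nat.casesOn i w0 w
  have e3 : ∀ i ≤ l, (T.t (α ((σ ^ i) d))).2 = Sum.inl (v' i) := by
    intro i hi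
    cases i with
    | zero => exact c1
    | succ i => rw [e1 i hi, hw i (by omega)]
  have e4 : ∀ i ≤ l, Γ.st (v' i) (T.lab ((σ ^ i) d)) (v' (i + 1)) := by
    intro i hi
    obtain ⟨w', b1, b2⟩ := h.edgeL (h.act (ha i)) (hw i hi)
    rw [e3 i hi, Sum.inl.injEq] at b1
    have := Γ.st_rev b2
    rw [h.lab _ (ha i), Γ.iv_iv, ← b1] at this
    exact this
  have e5 := hl v v' _ (h1 0) (fun i hi => ⟨h3 i, e4 i hi⟩) (fun i _ => h4 i)
  have e6 : v 1 = v' 1 := Γ.st_fun (h3 0) (e5 ▸ e4 0 (Nat.zero_le _))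
  exact hr.r2 _ (ha 0) (by rw [hw 0 (Nat.zero_le _), h2, e6]; rfl) (by rw [c1, h1, e5]; rfl)

/-- an inner face with at most five corners -/
lemma face (h : Dg Γ T σ α) (hr : Red Γ T σ α) (hs : ∃ i, (T.s T.star).2 = Sum.inr i)
    (ho : ∀ d i, α d ≠ d ∨ d = T.star → (T.s d).2 = Sum.inr i →
      SameCycle σ T.star d ∧ (α * σ) d ≠ d) :
    ∃ (d0 : D) (Gd : Finset D), d0 ∈ Gd ∧ (∀ d, d ∈ Gd ↔ SameCycle σ d0 d) ∧
      (∀ d ∈ Gd, α d ≠ d ∧ ∃ v, (T.s d).2 = Sum.inl v) ∧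
      (Gd.filter fun d => (α * σ) ((α * σ) d) ≠ d).card ≤ 5 := by
  classical
  have e1 := h.euler
  rw [← sum_filter_add_sum_filter_not _ (fun d => ∃ i, (T.s d).2 = Sum.inr i)] at e1
  have e3 : ∑ d ∈ (univ.filter fun d => α d ≠ d ∨ d = T.star).filter
      (fun d => ∃ i, (T.s d).2 = Sum.inr i), (rs σ d + rs α d + rs (α * σ) d - 1) ≤
      ∑ d ∈ univ.filter (fun d => SameCycle σ T.star d),
        (rs σ d + if d = T.star then 1 / 2 else 0) := by
    refine (sum_le_sum (g := fun d => rs σ d + if d = T.star then 1 / 2 else 0) ?_).trans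
      (sum_le_sum_of_subset_of_nonneg ?_ ?_)
    · intro d hd
      simp only [mem_filter, mem_univ, true_and] at hd
      obtain ⟨a1, i, hi⟩ := hd
      have := rs_le_half (ho d i a1 hi).2
      split_ifs with h1
      · have a1 := rs_le_one α d
        linarith
      · have := rs_le_half (a1.resolve_right h1)
        linarith
    · intro d hd
      simp only [mem_filter, mem_univ, true_and] at hd ⊢
      obtain ⟨a1, i, hi⟩ := hd
      exact (ho d i a1 hi).1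
    · intro d _ _
      have : 0 ≤ rs σ d := by unfold rs; positivity
      split_ifs <;> linarith
  rw [sum_add_distrib, sum_rs_orbit, sum_ite_eq'] at e3
  set I := (univ.filter fun d => α d ≠ d ∨ d = T.star).filter
    fun d => ¬∃ i, (T.s d).2 = Sum.inr i with hI
  have hG : ∀ d, d ∈ I ↔ α d ≠ d ∧ ∃ v, (T.s d).2 = Sum.inl v := by
    intro d
    simp only [hI, mem_filter, mem_univ, true_and]
    constructor
    · rintro ⟨a1, a2⟩
      refine ⟨a1.resolve_right fun h2 => a2 (h2 ▸ hs), ?_⟩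
      cases hd : (T.s d).2 with
      | inl v => exact ⟨v, rfl⟩
      | inr i => exact absurd ⟨i, hd⟩ a2
    · rintro ⟨a1, v, hv⟩
      exact ⟨Or.inl a1, by simp [hv]⟩
  have hσ : ∀ d ∈ I, σ d ∈ I := by
    intro d hd
    obtain ⟨a1, v, hv⟩ := (hG d).mp hd
    obtain ⟨v', b1, -⟩ := h.edgeL a1 hv
    simp only [hI, mem_filter, mem_univ, true_and]
    exact ⟨(h.live_iff d).mpr (Or.inl a1), by simp [h.sd d (Or.inl a1), b1]⟩
  have e4 : (0 : ℚ) < ∑ d ∈ I, (rs σ d + rs α d + rs (α * σ) d - 1) := by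
    split_ifs at e3 <;> linarith
  rw [sum_partition (orb σ)] at e4
  obtain ⟨q, hq, e5⟩ := exists_lt_of_sum_lt (f := fun _ => (0 : ℚ)) (sum_const_zero.trans_lt e4)
  obtain ⟨d0, hd0, rfl⟩ := mem_image.mp hq
  have hm : ∀ d, d ∈ I.filter (fun y => Quotient.mk (orb σ) y = Quotient.mk (orb σ) d0) ↔
      SameCycle σ d0 d := by
    intro d
    rw [mem_filter, Quotient.eq]
    refine ⟨fun h => SameCycle.symm h.2, fun h => ⟨?_, SameCycle.symm h⟩⟩
    obtain ⟨i, -, rfl⟩ := h.exists_pow_eq'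
    exact pow_mem_good I hσ hd0 i
  refine ⟨d0, _, (hm _).mpr (SameCycle.refl _ _), hm, fun d hd => (hG d).mp (mem_filter.mp hd).1,
    ?_⟩
  set Gd := I.filter (fun y => Quotient.mk (orb σ) y = Quotient.mk (orb σ) d0)
  have h1 : ∀ d ∈ Gd, rs σ d + rs α d + rs (α * σ) d - 1 ≤
      rs σ d - if (α * σ) ((α * σ) d) ≠ d then 1 / 6 else 0 := by
    intro d hd
    obtain ⟨a1, v, hv⟩ := (hG d).mp (mem_filter.mp hd).1
    have a2 := rs_le_half a1
    split_ifs with h2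
    · have := rs_le_third h2
      linarith
    · have := rs_le_half (h.deg_ne hr a1 hv)
      linarith
  have h2 := e5.trans_le (sum_le_sum h1)
  have h3 : Gd = univ.filter fun d => SameCycle σ d0 d := by
    ext d
    simp [hm]
  rw [sum_sub_distrib, ← sum_filter, sum_const, nsmul_eq_mul] at h2
  have h4 : ∑ d ∈ Gd, rs σ d = 1 := by rw [h3, sum_rs_orbit]
  have h5 : ((Gd.filter fun d => (α * σ) ((α * σ) d) ≠ d).card : ℚ) < 6 := by linarith
  have h6 : (Gd.filter fun d => (α * σ) ((α * σ) d) ≠ d).card < 6 := by exact_mod_cast h5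
  omega

/-- the outer face -/
lemma outer (P : ℕ → G) (s : ℕ → A) (n : ℕ) (hP : ∀ i < n, P (i + 1) = P i * Γ.gen (s i))
    (hw : Pre Γ ((List.range n).map s)) :
    ∃ (D : Type) (_ : Fintype D) (_ : DecidableEq D) (T : Dat D A G V) (σ α : Perm D) (g : G)
      (e : ℕ → D), Dg Γ T σ α ∧ Red Γ T σ α ∧ (T.s T.star).2 = Sum.inr n ∧ e n = T.star ∧
      (∀ k, e k = (σ ^ (k + 1)) T.star) ∧
      (∀ k < n, α (e k) ≠ e k ∧ T.lab (e k) = s k ∧ T.s (e k) = (g * P k, Sum.inr k)) ∧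
      ∀ d i, α d ≠ d → (T.s d).2 = Sum.inr i → i < n ∧ d = e i := by
  have hr : ∀ j k, k + j ≤ n → Reads (fun (z : V ⊕ ℕ) a (z' : V ⊕ ℕ) => ∃ i < n, z = Sum.inr i ∧
      z' = Sum.inr (i + 1) ∧ a = s i) (Sum.inr k) ((List.range' k j).map s) (Sum.inr (k + j)) := by
    intro j
    induction j with
    | zero => exact fun k _ => rfl
    | succ j ih =>
      intro k hk
      have := ih (k + 1) (by omega)
      rw [show k + 1 + j = k + (j + 1) by omega] at this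
      exact ⟨Sum.inr (k + 1), ⟨k, by omega, rfl, rfl, rfl⟩, this⟩
  have hr' := hr n 0 (by omega)
  rw [← List.range_eq_range', zero_add] at hr'
  obtain ⟨D, _, _, T, σ0, α0, l, k0, k2, k3, k4, k5, k6, k7, -⟩ :=
    hw.toDg _ (fun _ _ _ ⟨i, _, h1, h2, _⟩ => Or.inr ⟨i, h1, h2⟩) hr'
  obtain ⟨σ, α, h, hrd, -⟩ := k0.reduce
  have hl : ∀ d i, α d ≠ d → (T.s d).2 = Sum.inr i → d ∈ l := by
    intro d i hd hi
    by_contra hc
    obtain ⟨v, hv⟩ := k7 d hc fun e => hd (by rw [e, h.star])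
    simp [hv] at hi
  have hl' : ∀ d i, α d ≠ d → (T.s d).2 = Sum.inr i →
      i < n ∧ T.lab d = s i ∧ (T.t d).2 = Sum.inr (i + 1) := by
    intro d i hd hi
    obtain ⟨j, b1, b2, b3, b4⟩ := (k6 d (hl d i hd hi)).2
    rw [hi, Sum.inr.injEq] at b2
    subst b2
    exact ⟨b1, b4, b3⟩
  let e : ℕ → D := fun k => (σ ^ (k + 1)) T.star
  let g := (T.t T.star).1 * (P 0)⁻¹
  have he : ∀ k ≤ n, (α (e k) ≠ e k ∨ e k = T.star) ∧ T.s (e k) = (g * P k, Sum.inr k) := by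
    intro k
    induction k with
    | zero =>
      refine fun _ => ⟨(h.live_iff _).mpr (Or.inr rfl), ?_⟩
      simp only [e, g, zero_add, pow_one, h.sd _ (Or.inr rfl), inv_mul_cancel_right, ← k3]
    | succ k ih =>
      intro hk
      obtain ⟨a1, a2⟩ := ih (by omega)
      have a3 : α (e k) ≠ e k := a1.resolve_right fun h1 => by
        rw [h1] at a2
        rw [a2] at k2
        simp only [Sum.inr.injEq] at k2
        omega
      obtain ⟨-, b2, b3⟩ := hl' _ k a3 (by rw [a2])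
      have a4 : e (k + 1) = σ (e k) := by simp only [e, pow_succ' σ (k + 1), Perm.mul_apply]
      refine ⟨a4 ▸ (h.live_iff _).mpr a1, ?_⟩
      rw [a4, h.sd _ a1]
      exact Prod.ext (by rw [h.xt _ a3, a2, b2, hP k (by omega), mul_assoc]) b3
  have he' : ∀ k < n, α (e k) ≠ e k := fun k hk => (he k hk.le).1.resolve_right fun h1 => by
    have a2 := (he k hk.le).2
    rw [h1] at a2
    rw [a2] at k2
    simp only [Sum.inr.injEq] at k2
    omega
  have him : (range n).image e = l.toFinset := by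
    refine eq_of_subset_of_card_le (fun d hd => ?_) ?_
    · obtain ⟨k, hk, rfl⟩ := mem_image.mp hd
      rw [mem_range] at hk
      exact List.mem_toFinset.mpr (hl _ k (he' k hk) (by rw [(he k hk.le).2]))
    · rw [List.toFinset_card_of_nodup k4, k5, card_image_of_injOn]
      · simp
      · intro i hi j hj hij
        have a1 := (he i (mem_range.mp hi).le).2
        rw [hij, (he j (mem_range.mp hj).le).2] at a1
        simpa using (congrArg Prod.snd a1).symm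
  refine ⟨D, inferInstance, inferInstance, T, σ, α, g, e, h, hrd, k2, ?_, fun _ => rfl,
    fun k hk => ⟨he' k hk, (hl' _ k (he' k hk) (by rw [(he k hk.le).2])).2.1, (he k hk.le).2⟩,
    fun d i hd hi => ⟨(hl' d i hd hi).1, ?_⟩⟩
  · refine (he n le_rfl).1.resolve_left fun h1 => ?_
    exact lt_irrefl _ (hl' _ n h1 (by rw [(he n le_rfl).2])).1
  · have := List.mem_toFinset.mpr (hl d i hd hi)
    rw [← him] at this
    obtain ⟨k, hk, rfl⟩ := mem_image.mp this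
    rw [(he k (mem_range.mp hk).le).2] at hi
    simp only [Sum.inr.injEq] at hi
    rw [hi]

/-- Greendlinger's lemma, with local piece and girth conditions -/
lemma green (ℓ γ : V → ℕ) (hℓ : ∀ v a v', Γ.st v a v' → ℓ v' = ℓ v)
    (hl : ∀ (v v' : ℕ → V) (a : ℕ → A),
      (∀ i ≤ ℓ (v 0), Γ.st (v i) (a i) (v (i + 1)) ∧ Γ.st (v' i) (a i) (v' (i + 1))) →
      (∀ i < ℓ (v 0), a (i + 1) ≠ Γ.iv (a i)) → v 0 = v' 0)
    (hg : ∀ (j : ℕ) (v : ℕ → V) (a : ℕ → A), 0 < j → (∀ i, Γ.st (v i) (a i) (v (i + 1))) →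
      (∀ i, a (i + 1) ≠ Γ.iv (a i)) → v j = v 0 → γ (v 0) ≤ j)
    (θ : V → G) (hθ : ∀ v a v', Γ.st v a v' → θ v' = θ v * Γ.gen a)
    (P : ℕ → G) (s : ℕ → A) (n : ℕ) (hn : 0 < n) (hP : ∀ i < n, P (i + 1) = P i * Γ.gen (s i))
    (hs : ∀ i, i + 1 < n → s (i + 1) ≠ Γ.iv (s i)) (hw : Pre Γ ((List.range n).map s)) :
    ∃ (g : G) (y : ℕ → V) (a : ℕ → A) (E Bk : Finset ℕ) (u v : ℕ → V),
      (∀ i, Γ.st (y i) (a i) (y (i + 1))) ∧ (∀ i, a (i + 1) ≠ Γ.iv (a i)) ∧ Bk.card ≤ 5 ∧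
      (∀ i ∈ E, i < n ∧ (∃ j, u i = y j) ∧ Γ.st (u i) (s i) (v i) ∧ P i = g * θ (u i)) ∧
      (∀ i ∈ E, i ∉ Bk → i + 1 ∈ E ∧ u (i + 1) = v i) ∧ γ (y 0) ≤ E.card + 5 * ℓ (y 0) ∧
      ∀ h : V → ℤ, (∀ u a v, Γ.st u a v → |h v - h u| ≤ 1) →
        |∑ i ∈ E, (h (v i) - h (u i))| ≤ 5 * ℓ (y 0) := by
  classical
  obtain ⟨D, _, _, T, σ, α, g, e, h, hr, k1, k2, k3, k4, k5⟩ := outer P s n hP hw
  have e1 : ∀ k, e (k + 1) = σ (e k) := fun k => by rw [k3, k3, pow_succ' σ (k + 1), Perm.mul_apply]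
  obtain ⟨d0, Gd, f1, f2, hG, f4⟩ := face h hr ⟨n, k1⟩ (by
    rintro d i (hd | rfl) hi
    · obtain ⟨a1, rfl⟩ := k5 d i hd hi
      refine ⟨⟨(i + 1 : ℕ), by rw [zpow_natCast, k3]⟩, fun h1 => ?_⟩
      have h2 : e (i + 1) = α (e i) := by rw [e1, ← h.inv (σ _)]; exact congrArg α h1
      rcases (show i + 1 < n ∨ i + 1 = n by omega) with h3 | h3
      · exact hs i h3 (by rw [← (k4 _ h3).2.1, h2, h.lab _ hd, (k4 _ a1).2.1])
      · rw [h3, k2] at h2
        exact h.act hd (by rw [← h2, h.star])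
    · refine ⟨SameCycle.refl _ _, fun h1 => (k4 0 hn).1 ?_⟩
      have h2 : e 0 = T.star := by
        rw [k3, zero_add, pow_one]
        exact α.injective (h1.trans h.star.symm)
      rw [h2, h.star])
  have hσ : ∀ d ∈ Gd, σ d ∈ Gd := fun d hd => (f2 _).mpr (by simpa using (f2 _).mp hd)
  have hσ' : ∀ d ∈ Gd, σ⁻¹ d ∈ Gd := fun d hd => (f2 _).mpr (by simpa using (f2 _).mp hd)
  obtain ⟨y, g1, g2, g3, g4⟩ := good_path h hr Gd hσ hG f1
  have hp : ∀ d ∈ Gd, ∃ i : ℕ, (σ ^ i) d0 = d := fun d hd =>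
    let ⟨i, _, hi⟩ := ((f2 d).mp hd).exists_pow_eq'
    ⟨i, hi⟩
  let ys : D → V := fun d => Sum.elim id (fun _ => y 0) (T.s d).2
  let yt : D → V := fun d => Sum.elim id (fun _ => y 0) (T.t d).2
  have y1 : ∀ i, ys ((σ ^ i) d0) = y i := fun i => by simp [ys, g1]
  have y2 : ∀ i, yt ((σ ^ i) d0) = y (i + 1) := fun i => by simp [yt, g2]
  have y3 : ∀ d ∈ Gd, Γ.st (ys d) (T.lab d) (yt d) := fun d hd => by
    obtain ⟨i, rfl⟩ := hp d hd
    rw [y1, y2]
    exact g3 i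
  have y4 : ∀ d ∈ Gd, ys (σ d) = yt d := fun d hd => by
    simp only [ys, yt, h.sd d (Or.inl (hG d hd).1)]
  have y5 : ∀ i, ℓ (y i) = ℓ (y 0) := fun i => by
    induction i with
    | zero => rfl
    | succ i ih => rw [hℓ _ _ _ (g3 i), ih]
  have y6 : ∀ i, (T.s ((σ ^ i) d0)).1 = (T.s d0).1 * (θ (y 0))⁻¹ * θ (y i) := fun i => by
    induction i with
    | zero => simp
    | succ i ih =>
      have a1 := (hG _ (pow_mem_good Gd hσ f1 i)).1
      rw [pow_succ', Perm.mul_apply, h.sd _ (Or.inl a1), h.xt _ a1, ih, hθ _ _ _ (g3 i),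
        mul_assoc _ (θ _)]
  let H := Gd.filter fun d => (α * σ) ((α * σ) d) ≠ d
  let E := (range n).filter fun i => α (e i) ∈ Gd
  let X := E.image fun i => α (e i)
  have hinj : Set.InjOn (fun i => α (e i)) E := by
    intro i hi j hj hij
    have a1 := (k4 i (mem_range.mp (mem_filter.mp hi).1)).2.2
    rw [α.injective hij, (k4 j (mem_range.mp (mem_filter.mp hj).1)).2.2] at a1
    simpa using (congrArg Prod.snd a1).symm
  have hX : X ⊆ Gd := fun d hd => by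
    obtain ⟨i, hi, rfl⟩ := mem_image.mp hd
    exact (mem_filter.mp hi).2
  have c1 : (Gd \ X).card ≤ 5 * ℓ (y 0) := by
    have : Gd \ X ⊆ (range (ℓ (y 0))).biUnion fun i => H.image (fun z => (σ ^ i)⁻¹ z) := by
      intro d hd
      obtain ⟨hd, hd'⟩ := mem_sdiff.mp hd
      cases hs : (T.s (α d)).2 with
      | inl u =>
        obtain ⟨i, hi, h3⟩ := run h hr Gd hσ hG (l := ℓ (y 0)) hd (fun v v' a b1 b2 b3 => by
          obtain ⟨j, rfl⟩ := hp d hd
          have b4 : ℓ (v 0) = ℓ (y 0) := by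
            rw [g1, Sum.inl.injEq] at b1
            rw [← b1, y5]
          exact hl v v' a (b4 ▸ b2) (b4 ▸ b3)) hs
        exact mem_biUnion.mpr ⟨i, mem_range.mpr hi, mem_image.mpr
          ⟨_, mem_filter.mpr ⟨pow_mem_good Gd hσ hd i, h3⟩, by simp⟩⟩
      | inr i =>
        obtain ⟨a1, a2⟩ := k5 _ i (h.act (hG d hd).1) hs
        have a3 : α (e i) = d := by rw [← a2, h.inv]
        exact absurd (mem_image.mpr ⟨i, mem_filter.mpr ⟨mem_range.mpr a1, a3 ▸ hd⟩, a3⟩) hd'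
    refine (card_le_card this).trans (card_biUnion_le.trans ?_)
    refine (sum_le_sum fun i _ => card_image_le.trans f4).trans ?_
    simp [mul_comm]
  have c2 : γ (y 0) ≤ Gd.card := by
    have hper : d0 ∈ Function.periodicPts σ := (σ.injective.mem_periodicPts d0)
    refine (hg (Function.minimalPeriod σ d0) y _
      (Function.minimalPeriod_pos_of_mem_periodicPts hper) g3 g4 ?_).trans ?_
    · rw [← y1, ← y1, ← Perm.iterate_eq_pow, Function.iterate_minimalPeriod, pow_zero,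
        Perm.one_apply]
    · rw [← card_range (Function.minimalPeriod σ d0)]
      refine card_le_card_of_injOn (fun i => σ^[i] d0) (fun i _ => ?_) fun i hi j hj hij =>
        Function.iterate_injOn_Iio_minimalPeriod (by simpa using hi) (by simpa using hj) hij
      simp only [Perm.iterate_eq_pow]
      exact pow_mem_good Gd hσ f1 i
  refine ⟨g⁻¹ * ((T.s d0).1 * (θ (y 0))⁻¹), y, _, E, E.filter fun i => σ⁻¹ (α (e i)) ∈ H,
    fun i => yt (α (e i)), fun i => ys (α (e i)), g3, g4, ?_, fun i hi => ?_, fun i hi hb => ?_,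
    ?_, fun φ hφ => ?_⟩
  · refine le_trans (card_le_card_of_injOn (fun i => σ⁻¹ (α (e i)))
      (fun i hi => (mem_filter.mp hi).2) fun i hi j hj hij => ?_) f4
    exact hinj (mem_filter.mp hi).1 (mem_filter.mp hj).1 (σ⁻¹.injective hij)
  · obtain ⟨a1, a2⟩ := mem_filter.mp hi
    rw [mem_range] at a1
    obtain ⟨b1, b2, b3⟩ := k4 i a1
    have a3 := Γ.st_rev (y3 _ a2)
    rw [h.lab _ b1, Γ.iv_iv, b2] at a3
    obtain ⟨j, hj⟩ := hp _ a2
    refine ⟨a1, ⟨j + 1, by simp only [← hj, y2]⟩, a3, ?_⟩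
    have a4 := y6 (j + 1)
    rw [pow_succ', Perm.mul_apply, hj, h.sd _ (Or.inl (h.act b1)), h.xt' b1, b3] at a4
    simp only [← hj, y2]
    rw [mul_assoc, ← a4, inv_mul_cancel_left]
  · obtain ⟨a1, a2⟩ := mem_filter.mp hi
    rw [mem_range] at a1
    have a3 : α (e (i + 1)) = σ⁻¹ (α (e i)) := by
      by_contra hc
      refine hb (mem_filter.mpr ⟨hi, mem_filter.mpr ⟨hσ' _ a2, ?_⟩⟩)
      simpa [h.inv, ← e1] using hc
    have a4 : i + 1 < n := by
      by_contra hc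
      have a5 := (hG _ (hσ' _ a2)).1
      rw [← a3, show i + 1 = n by omega, k2, h.star] at a5
      exact a5 h.star
    refine ⟨mem_filter.mpr ⟨mem_range.mpr a4, a3 ▸ hσ' _ a2⟩, ?_⟩
    simp only [a3, ← y4 _ (hσ' _ a2)]
    simp
  · have := card_sdiff_add_card_eq_card hX
    rw [card_image_of_injOn hinj] at this
    omega
  · have s1 : ∑ d ∈ Gd, φ (yt d) = ∑ d ∈ Gd, φ (ys d) :=
      sum_bij' (fun d _ => σ d) (fun d _ => σ⁻¹ d) hσ hσ' (by simp) (by simp)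
        fun d hd => by rw [y4 d hd]
    have s2 : ∑ i ∈ E, (φ (ys (α (e i))) - φ (yt (α (e i)))) =
        ∑ d ∈ Gd \ X, (φ (yt d) - φ (ys d)) := by
      rw [sum_sdiff_eq_sub hX, sum_image hinj, sum_sub_distrib (s := Gd), s1]
      simp [sum_sub_distrib]
    rw [s2]
    refine (abs_sum_le_sum_abs _ _).trans ((sum_le_sum fun d hd =>
      hφ _ _ _ (y3 d (mem_sdiff.mp hd).1)).trans ?_)
    rw [sum_const, nsmul_eq_mul, mul_one]
    exact_mod_cast c1

end Face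

variable {S V : Type} [Fintype S] (F : Fam S V) (ω : Set ℕ)

/-- the levels in `ω`, with an extra edge for each letter -/
def gr : Gr S (V ⊕ S × Bool) where
  st p a p' := (∃ v v', p = Sum.inl v ∧ p' = Sum.inl v' ∧ F.lev v ∈ ω ∧ F.st v a v') ∨
    (p = Sum.inr a ∧ p' = Sum.inr (iv a))
  st_fun := by
    rintro p a p' p'' (⟨v, v', rfl, rfl, -, h⟩ | ⟨rfl, rfl⟩) (⟨u, u', e, rfl, -, h'⟩ | ⟨e, rfl⟩)
    · rw [Sum.inl.injEq] at e
      rw [F.st_fun h (e ▸ h')]
    · simp at e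
    · simp at e
    · rfl
  st_rev := by
    rintro p a p' (⟨v, v', rfl, rfl, h1, h⟩ | ⟨rfl, rfl⟩)
    · exact Or.inl ⟨v', v, rfl, rfl, F.lev_st h ▸ h1, F.st_rev h⟩
    · exact Or.inr ⟨rfl, congrArg _ (iv_iv a).symm⟩
  full a := ⟨_, _, Or.inr ⟨rfl, rfl⟩⟩

variable {F ω}

lemma st_inl {v : V} {a : S × Bool} {p : V ⊕ S × Bool} (h : (gr F ω).st (Sum.inl v) a p) :
    ∃ v', p = Sum.inl v' ∧ F.lev v ∈ ω ∧ F.st v a v' := by
  rcases h with ⟨u, v', e, rfl, h1, h⟩ | ⟨e, -⟩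
  · rw [Sum.inl.injEq] at e
    subst e
    exact ⟨v', rfl, h1, h⟩
  · simp at e

lemma two {p p' p'' : V ⊕ S × Bool} {a a' : S × Bool} (h : (gr F ω).st p a p')
    (h' : (gr F ω).st p' a' p'') (hr : a' ≠ iv a) : ∃ v, p = Sum.inl v := by
  rcases h with ⟨u, -, e, -⟩ | ⟨-, rfl⟩
  · exact ⟨u, e⟩
  · rcases h' with ⟨u, -, e, -⟩ | ⟨e, -⟩
    · simp at e
    · exact absurd (Sum.inr_injective e).symm hr

lemma lift {p : ℕ → V ⊕ S × Bool} {a : ℕ → S × Bool} {n : ℕ} {v : V} (h0 : p 0 = Sum.inl v)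
    (h : ∀ i < n, (gr F ω).st (p i) (a i) (p (i + 1))) :
    ∃ y, F.Wk y a n ∧ y 0 = v ∧ ∀ i ≤ n, p i = Sum.inl (y i) ∧ F.lev (y i) = F.lev v := by
  have h1 : ∀ i ≤ n, ∃ u, p i = Sum.inl u ∧ F.lev u = F.lev v := by
    intro i
    induction i with
    | zero => exact fun _ => ⟨v, h0, rfl⟩
    | succ i ih =>
      intro hi
      obtain ⟨u, h1, h2⟩ := ih (by omega)
      obtain ⟨u', h3, -, h4⟩ := st_inl (h1 ▸ h i (by omega))
      exact ⟨u', h3, (F.lev_st h4).trans h2⟩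
  have h2 : ∀ i ≤ n, p i = Sum.inl (Sum.elim id (fun _ => v) (p i)) ∧
      F.lev (Sum.elim id (fun _ => v) (p i)) = F.lev v := fun i hi => by
    obtain ⟨u, h1, h2⟩ := h1 i hi
    simp [h1, h2]
  refine ⟨fun i => Sum.elim id (fun _ => v) (p i), fun i hi => ?_, by simp [h0], h2⟩
  obtain ⟨u', h3, -, h4⟩ := st_inl ((h2 i hi.le).1 ▸ h i hi)
  simpa [h3] using h4

lemma exists_theta {S V : Type} (L : Gr S V) :
    ∃ θ : V → L.Grp, ∀ v a v', L.st v a v' → θ v' = θ v * L.sys.gen a := by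
  let r : Setoid V := ⟨fun v v' => ∃ w, Reads L.st v w v', fun v => ⟨[], rfl⟩,
    fun ⟨_, h⟩ => ⟨_, L.rev h⟩, fun ⟨_, h⟩ ⟨_, h'⟩ => ⟨_, h.append h'⟩⟩
  let root : V → V := fun v => (Quotient.mk r v).out
  have hp : ∀ v, ∃ w, Reads L.st (root v) w v := fun v => Quotient.mk_out (s := r) v
  choose p hp using hp
  have inv : ∀ w : List (S × Bool),
      ((FreeGroup.invRev w).map L.sys.gen).prod = ((w.map L.sys.gen).prod)⁻¹ := by
    intro w
    rw [L.prod_gen, L.prod_gen, ← FreeGroup.inv_mk, QuotientGroup.mk_inv]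
  refine ⟨fun v => ((p v).map L.sys.gen).prod, fun v a v' h => ?_⟩
  have e : root v' = root v :=
    congrArg Quotient.out (Quotient.sound (s := r) ⟨[a], v', h, rfl⟩).symm
  have := L.closed _ _ (((hp v).append (w' := [a]) ⟨v', h, rfl⟩).append (e ▸ L.rev (hp v')))
  rw [List.map_append, List.map_append, List.prod_append, List.prod_append, inv,
    mul_inv_eq_one] at this
  simpa using this.symm

end GLX

open GLX Vale.Agent.P194 in
theorem exists_geo {S V : Type} [Fintype S] (F : Fam S V) (ω : Set ℕ) :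
    ∃ (G : Type) (_ : Group G) (_ : Countable G), Nonempty (Geo F ω G) := by
  obtain ⟨v0, -⟩ : (F.lv 0).Nonempty := Finset.card_pos.mp ((Nat.zero_le _).trans_lt (F.wide 0))
  obtain ⟨a0, -⟩ : (F.out v0).Nonempty := Finset.card_pos.mp (by have := (F.deg v0).1; omega)
  have : Nonempty S := ⟨a0.1⟩
  obtain ⟨θ, hθ⟩ := exists_theta (gr F ω)
  refine ⟨(gr F ω).Grp, inferInstance, QuotientGroup.mk_surjective.countable,
    ⟨(gr F ω).sys.gen, (gr F ω).sys.gen_iv, fun v => θ (Sum.inl v),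
      fun h1 h2 => hθ _ _ _ (Or.inl ⟨_, _, rfl, rfl, h1, h2⟩), fun P s n hn hP hs hc => ?_⟩⟩
  have hprod : ∀ k ≤ n, P 0 * (((List.range k).map s).map (gr F ω).sys.gen).prod = P k := by
    intro k
    induction k with
    | zero => simp
    | succ k ih =>
      intro hk
      rw [hP k hk, ← ih (by omega)]
      simp [List.range_succ, mul_assoc]
  obtain ⟨g, p, a, E, Bk, u, v, h1, h2, h3, h4, h5, h6, h7⟩ := green (Γ := (gr F ω).sys)
    (Sum.elim (fun v => F.ell (F.lev v)) fun _ => 1)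
    (Sum.elim (fun v => 100 * (F.ell (F.lev v) + 1)) fun _ => 0)
    (by
      rintro p a p' (⟨v, v', rfl, rfl, -, h⟩ | ⟨rfl, rfl⟩)
      · simp [F.lev_st h]
      · rfl)
    (fun p p' a b1 b2 => by
      have b3 : 0 < Sum.elim (fun v => F.ell (F.lev v)) (fun _ => 1) (p 0) := by
        cases p 0 with
        | inl v => exact (Nat.zero_le _).trans_lt (F.ell_gt _)
        | inr b => exact one_pos
      obtain ⟨z, hz⟩ := two (b1 0 (by omega)).1 (b1 1 b3).1 (b2 0 b3)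
      obtain ⟨z', hz'⟩ := two (b1 0 (by omega)).2 (b1 1 b3).2 (b2 0 b3)
      rw [hz, Sum.elim_inl] at b1 b2
      obtain ⟨y, c1, rfl, -⟩ := lift (n := F.ell (F.lev z) + 1) hz fun i hi => (b1 i (by omega)).1
      obtain ⟨y', c1', rfl, -⟩ := lift hz' fun i (hi : i < F.ell (F.lev (y 0)) + 1) =>
        (b1 i (by omega)).2
      rw [hz, hz', F.piece y y' a c1 c1' fun i hi => b2 i (by omega)])
    (fun j p a b0 b1 b2 b3 => by
      obtain ⟨z, hz⟩ := two (b1 0) (b1 1) (b2 0)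
      obtain ⟨y, c1, c2, c3⟩ := lift (n := j) hz fun i _ => b1 i
      have := F.girth z y a j b0 c1 (fun i _ => b2 i) c2
        (Sum.inl_injective ((c3 j le_rfl).1.symm.trans (b3.trans hz)))
      rw [hz, Sum.elim_inl]
      omega)
    θ hθ P s n hn hP hs ((gr F ω).pre (mul_left_cancel (a := P 0) (by
      rw [hprod n le_rfl, hc, mul_one])))
  obtain ⟨z, hz⟩ := two (h1 0) (h1 1) (h2 0)
  obtain ⟨-, -, hω, -⟩ := st_inl (hz ▸ h1 0)
  rw [hz, Sum.elim_inl] at h6 h7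
  have e1 : ∀ i ∈ E, ∃ x x', u i = Sum.inl x ∧ v i = Sum.inl x' ∧ F.lev x = F.lev z ∧
      F.st x (s i) x' := by
    intro i hi
    obtain ⟨-, ⟨j, b1⟩, b2, -⟩ := h4 i hi
    obtain ⟨y, -, -, c3⟩ := lift (n := j) hz fun i _ => h1 i
    have c4 := b1.trans (c3 j le_rfl).1
    obtain ⟨x', c5, -, c6⟩ := st_inl (c4 ▸ b2)
    exact ⟨y j, x', c4, c5, (c3 j le_rfl).2, c6⟩
  refine ⟨g, F.lev z, hω, E, Bk, fun i => Sum.elim id (fun _ => z) (u i),
    fun i => Sum.elim id (fun _ => z) (v i), h3, fun i hi => ?_,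
    fun i hi hb => ⟨(h5 i hi hb).1, by simp only [(h5 i hi hb).2]⟩, by simpa using h6,
    fun φ hφ => ?_⟩
  · obtain ⟨x, x', c1, c2, c3, c4⟩ := e1 i hi
    obtain ⟨b1, -, -, b2⟩ := h4 i hi
    simpa [c1, c2, c3, c4, b1] using b2
  · have := h7 (fun p => φ (Sum.elim id (fun _ => z) p)) (by
      rintro p a p' (⟨v, v', rfl, rfl, -, h⟩ | ⟨rfl, rfl⟩)
      · exact hφ _ _ _ h
      · simp)
    simpa using this

end Vale.Agent.P089
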