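import Vale.Agent.P089.MainA
import Vale.Agent.P089.Proj
import Vale.Agent.P089.GL
import Vale.Agent.P089.Asm

/-! A class that is not an index. -/

namespace Vale.Agent.P089

theorem countable_closure_TS : (AddSubgroup.closure TS : Set ℂ).Countable := by
  have := TS_countable.to_subtype
  rw [← Submodule.span_int_eq_addSubgroupClosure, ← Subtype.range_coe (s := TS)]
  exact Set.countable_coe_iff.mp
    (inferInstanceAs (Countable (Submodule.span ℤ (Set.range (Subtype.val : TS → ℂ)))))

theorem closure_ne_top {A B : Type} [AddCommGroup A] [AddCommGroup B] (f : A →+ B) {T : Set B}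
    {s : Set A} (hs : ∀ k ∈ s, f k ∈ T) {k : A} (hk : f k ∉ AddSubgroup.closure T) :
    AddSubgroup.closure s ≠ ⊤ := by
  intro h
  have h1 : AddSubgroup.closure s ≤ (AddSubgroup.closure T).comap f :=
    (AddSubgroup.closure_le _).mpr fun k hk => AddSubgroup.subset_closure (hs k hk)
  exact hk (h1 (h ▸ AddSubgroup.mem_top k))

theorem exists_class : ∃ (G : Type) (_ : Group G) (_ : Countable G) (a : Idem G),
    tauK (cls a) ∉ AddSubgroup.closure TS := by
  obtain ⟨S, _, V, ⟨F⟩⟩ := exists_fam
  obtain ⟨ω, hω⟩ := exists_bad (AddSubgroup.closure TS) countable_closure_TS (fun m => (F.lv m).card) F.grow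
  obtain ⟨G, _, _, ⟨Ω⟩⟩ := exists_geo F ω
  obtain ⟨Γ, _, _, p, h1, h2, h3⟩ := Ω.exists_proj
  obtain ⟨a, ha⟩ := idem_of_scalar h1 h2
  exact ⟨Γ, inferInstance, inferInstance, a, by rwa [tauK_cls, ha, h3]⟩

end Vale.Agent.P089
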