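import Vale.Agent.P089.Stmt
import Vale.Agent.P089.Main

/-! Comparison of the bundled definitions with the working ones. -/

namespace Vale.Agent.P089.BC

variable {G : Type} [Group G] {X Y X' Y' : Hilb}

lemma amp_eq (g : G) (x : Op X Y) : amp g x = P089.amp g x :=
  ContinuousLinearMap.ext fun ξ => lp.ext (funext fun h => (exists_amp g x).choose_spec ξ h)

lemma inl_eq (X Y : Hilb) : inl X Y = P089.inl X.c Y.c :=
  ContinuousLinearMap.ext fun v => (WithLp.equiv 2 (X.c × Y.c)).injective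
    (Prod.ext ((exists_inl X Y).choose_spec v).1 ((exists_inl X Y).choose_spec v).2)

lemma inr_eq (X Y : Hilb) : inr X Y = P089.inr X.c Y.c :=
  ContinuousLinearMap.ext fun v => (WithLp.equiv 2 (X.c × Y.c)).injective
    (Prod.ext ((exists_inr X Y).choose_spec v).1 ((exists_inr X Y).choose_spec v).2)

lemma mem_Mor {y : Op (l2 G X) (l2 G Y)} : y ∈ Mor G X Y ↔ y ∈ P089.Mor G X.c Y.c := by
  simp only [Mor, amp_eq]
  rfl

lemma mem_Cpt {y : Op (l2 G X) (l2 G Y)} : y ∈ Cpt G X Y ↔ y ∈ P089.Cpt G X.c Y.c := by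
  simp only [Cpt, amp_eq]
  rfl

lemma dsum_eq (a : Op (l2 G X) (l2 G X')) (b : Op (l2 G Y) (l2 G Y')) :
    dsum a b = P089.dsum (G := G) (H := X.c) (K := Y.c) (H' := X'.c) (K' := Y'.c) a b := by
  unfold dsum
  rw [amp_eq, amp_eq, amp_eq, amp_eq, inl_eq, inr_eq]
  rfl

section
variable {H K L : Type} [NormedAddCommGroup H] [InnerProductSpace ℂ H] [NormedAddCommGroup K]
  [InnerProductSpace ℂ K] [NormedAddCommGroup L] [InnerProductSpace ℂ L]

/-- equivalence with a direct sum -/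
def Eqv (a : L2 G H →L[ℂ] L2 G H) (b : L2 G K →L[ℂ] L2 G K) (c : L2 G L →L[ℂ] L2 G L) : Prop :=
  ∃ u ∈ P089.Mor G (DS H K) L, ∃ v ∈ P089.Mor G L (DS H K), v ∘L u = P089.dsum a b ∧ u ∘L v = c

/-- the data of an index -/
def Dat (P Q T : L2 G H →L[ℂ] L2 G H) (a : L2 G K →L[ℂ] L2 G K) (b : L2 G L →L[ℂ] L2 G L) :
    Prop :=
  ∃ S ∈ P089.Mor G (DS H L) (DS H K), ∃ R ∈ P089.Mor G (DS H K) (DS H L),
    R ∘L S = P089.dsum P b ∧ S ∘L R = P089.dsum Q a ∧
    S - P089.dsum T (0 : L2 G L →L[ℂ] L2 G K) ∈ P089.Cpt G (DS H L) (DS H K)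

end

lemma eqv_iff (a : Op (l2 G X) (l2 G X)) (b : Op (l2 G Y) (l2 G Y)) (c : Op (l2 G X') (l2 G X')) :
    (∃ u ∈ Mor G (ds X Y) X', ∃ v ∈ Mor G X' (ds X Y), dsum a b = comp v u ∧ c = comp u v) ↔
      Eqv (G := G) (H := X.c) (K := Y.c) (L := X'.c) a b c := by
  rw [dsum_eq]
  exact exists_congr fun u => and_congr mem_Mor (exists_congr fun v => and_congr mem_Mor
    (and_congr eq_comm eq_comm))

lemma dat_iff (P Q T : Op (l2 G X) (l2 G X)) (a : Op (l2 G Y) (l2 G Y))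
    (b : Op (l2 G Y') (l2 G Y')) :
    (∃ S ∈ Mor G (ds X Y') (ds X Y), ∃ R ∈ Mor G (ds X Y) (ds X Y'),
      dsum P b = comp R S ∧ dsum Q a = comp S R ∧
      sub S (dsum T zero) ∈ Cpt G (ds X Y') (ds X Y)) ↔
      Dat (G := G) (H := X.c) (K := Y.c) (L := Y'.c) P Q T a b := by
  rw [dsum_eq T (zero : Op (l2 G Y') (l2 G Y)), dsum_eq P b, dsum_eq Q a]
  exact exists_congr fun u => and_congr mem_Mor (exists_congr fun v => and_congr mem_Mor
    (and_congr eq_comm (and_congr eq_comm mem_Cpt)))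

/-- to the working form -/
def toI (a : Idem G) : P089.Idem G := ⟨a.n, a.e, mem_Mor.mp a.mem, a.idem.symm⟩

/-- from the working form -/
def ofI (a : P089.Idem G) : Idem G := ⟨a.n, a.e, mem_Mor.mpr a.mem, a.idem.symm⟩

lemma cls_add {a b c : Idem G} (h : Eqv (toI a).e (toI b).e (toI c).e) :
    cls c - cls a - cls b = 0 :=
  (QuotientAddGroup.eq_zero_iff _).mpr (AddSubgroup.subset_closure
    ⟨a, b, c, (eqv_iff a.e b.e c.e).mpr h, rfl⟩)

lemma cls_add' {a b c : P089.Idem G} (h : Eqv a.e b.e c.e) :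
    P089.cls c - P089.cls a - P089.cls b = 0 :=
  (QuotientAddGroup.eq_zero_iff _).mpr (AddSubgroup.subset_closure ⟨a, b, c, h, rfl⟩)

lemma exists_to : ∃ φ : K0 G →+ P089.K0 G, ∀ a, φ (cls a) = P089.cls (toI a) := by
  refine ⟨QuotientAddGroup.lift _ (FreeAbelianGroup.lift fun a => P089.cls (toI a)) ?_,
    fun a => FreeAbelianGroup.lift_apply_of _ a⟩
  refine (AddSubgroup.closure_le _).mpr ?_
  rintro _ ⟨a, b, c, h, rfl⟩
  rw [SetLike.mem_coe, AddMonoidHom.mem_ker, map_sub, map_sub, FreeAbelianGroup.lift_apply_of,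
    FreeAbelianGroup.lift_apply_of, FreeAbelianGroup.lift_apply_of]
  exact cls_add' ((eqv_iff a.e b.e c.e).mp h)

lemma exists_of : ∃ ψ : P089.K0 G →+ K0 G, ∀ a, ψ (P089.cls a) = cls (ofI a) := by
  refine ⟨QuotientAddGroup.lift _ (FreeAbelianGroup.lift fun a => cls (ofI a)) ?_,
    fun a => FreeAbelianGroup.lift_apply_of _ a⟩
  refine (AddSubgroup.closure_le _).mpr ?_
  intro z hz
  have hz' : ∃ a b c : P089.Idem G, Eqv a.e b.e c.e ∧
    z = FreeAbelianGroup.of c - FreeAbelianGroup.of a - FreeAbelianGroup.of b := hz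
  obtain ⟨a, b, c, h, e⟩ := hz'
  rw [e, SetLike.mem_coe, AddMonoidHom.mem_ker, map_sub, map_sub, FreeAbelianGroup.lift_apply_of,
    FreeAbelianGroup.lift_apply_of, FreeAbelianGroup.lift_apply_of]
  exact cls_add (a := ofI a) (b := ofI b) (c := ofI c) h

variable {H : Type} [NormedAddCommGroup H] [InnerProductSpace ℂ H] [CompleteSpace H]
  {Z : Type} [TopologicalSpace Z] [MulAction G Z] [ContinuousConstSMul G Z]
  (x : Cycle G H Z) (c : Cutoff G Z)

lemma proj_eq (s : ℂ) : proj x c s = P089.proj x c * P089.amp 1 (part x s) := by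
  have : (fun g => amp (X := ⟨H⟩) (Y := ⟨H⟩) g (coef x c g)) =
      fun g => P089.amp g (coef x c g) := funext fun g => amp_eq _ _
  unfold proj
  rw [amp_eq (X := ⟨H⟩) (Y := ⟨H⟩) 1 (part x s), this]
  rfl

lemma projP_eq : proj x c 1 = P089.projP x c := by
  rw [proj_eq, part, one_smul]
  rfl

lemma projM_eq : proj x c (-1) = P089.projM x c := by
  rw [proj_eq, part, neg_smul, one_smul, ← sub_eq_add_neg]
  rfl

lemma isIndex_iff {k : K0 G} : IsIndex x c k ↔ ∃ a b : Idem G, k = cls a - cls b ∧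
    Dat (projP x c) (projM x c) (projM x c * P089.amp 1 x.F * projP x c) (toI a).e (toI b).e := by
  refine exists_congr fun a => exists_congr fun b => and_congr_right fun _ =>
    (dat_iff _ _ _ a.e b.e).trans ?_
  rw [amp_eq (X := ⟨H⟩) (Y := ⟨H⟩) 1 x.F, projP_eq, projM_eq]
  rfl

lemma isIndex_iff' {k : P089.K0 G} : P089.IsIndex x c k ↔ ∃ a b : P089.Idem G,
    k = P089.cls a - P089.cls b ∧
    Dat (projP x c) (projM x c) (projM x c * P089.amp 1 x.F * projP x c) a.e b.e := Iff.rfl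

lemma index_to {φ : K0 G →+ P089.K0 G} (hφ : ∀ a, φ (cls a) = P089.cls (toI a)) {k : K0 G}
    (h : IsIndex x c k) : P089.IsIndex x c (φ k) := by
  obtain ⟨a, b, rfl, h'⟩ := (isIndex_iff x c).mp h
  exact (isIndex_iff' x c).mpr ⟨toI a, toI b, by rw [map_sub, hφ, hφ], h'⟩

lemma index_of {ψ : P089.K0 G →+ K0 G} (hψ : ∀ a, ψ (P089.cls a) = cls (ofI a)) {k : P089.K0 G}
    (h : P089.IsIndex x c k) : IsIndex x c (ψ k) := by
  obtain ⟨a, b, rfl, h'⟩ := (isIndex_iff' x c).mp h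
  exact (isIndex_iff x c).mpr ⟨ofI a, ofI b, by rw [map_sub, hψ, hψ], h'⟩

theorem exists_index [T2Space Z] [ProperlyDiscontinuousSMul G Z] : ∃ k, IsIndex x c k := by
  obtain ⟨ψ, hψ⟩ := exists_of (G := G)
  obtain ⟨k, hk⟩ := P089.exists_index x c
  exact ⟨_, index_of x c hψ hk⟩

theorem exists_group : ∃ (G : Type) (_ : Group G) (_ : Countable G),
    AddSubgroup.closure {k : K0 G | ∃ (Z : Type) (_ : TopologicalSpace Z) (_ : T2Space Z)
      (_ : MulAction G Z) (_ : ContinuousConstSMul G Z) (_ : ProperlyDiscontinuousSMul G Z)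
      (c : Cutoff G Z) (H : Type) (_ : NormedAddCommGroup H) (_ : InnerProductSpace ℂ H)
      (_ : CompleteSpace H) (x : Cycle G H Z), IsIndex x c k} ≠ ⊤ := by
  obtain ⟨G, i1, i2, a, ha⟩ := exists_class
  obtain ⟨φ, hφ⟩ := exists_to (G := G)
  refine ⟨G, i1, i2, ?_⟩
  refine closure_ne_top (tauK.comp φ) (T := TS) (k := cls (ofI a)) ?_ ?_
  · rintro k ⟨Z, _, _, _, _, _, c, H, _, _, _, x, h⟩
    exact index_mem x c (index_to x c hφ h)
  · rwa [AddMonoidHom.comp_apply, hφ]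

end Vale.Agent.P089.BC
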